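import Vale.Agent.P273.H730.Asm0

/-!
# P273, row ASY1 (helper976): `CoreL`, the data of a core mark away from the other roots

The distances of the mark to all roots are at least `m = min r (c/32)`, and
`‖t i‖ ≤ ‖t i‖ ^ 3 * qs t`.
-/

noncomputable section

namespace Vale.Agent.P273.H976

open Set Filter H681 H95 H973 H730
open scoped Topology ContDiff

/-- long neck: the half difference is small -/
theorem norm_le_of_len {c : ℝ} {d : ℂ} (hc : 0 < c) (hd : d ≠ 0)
    (h : 2 * Real.log 32 ≤ yl c d) : ‖d‖ ≤ c / 32 := by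
  have hd' : 0 < ‖d‖ := norm_pos_iff.2 hd
  have h1 : Real.log 32 ≤ Real.log (c / ‖d‖) := by
    unfold yl at h
    linarith
  have h2 : (32 : ℝ) ≤ c / ‖d‖ := (Real.log_le_log_iff (by norm_num) (div_pos hc hd')).1 h1
  rw [le_div_iff₀ hd'] at h2
  linarith

/-- the distance to a root is at most its cube times the inverse square of the scale -/
theorem norm_le_qs {ι : Type*} [Fintype ι] (t : ι → ℂ) (i : ι) (h : t i ≠ 0) :
    ‖t i‖ ≤ ‖t i‖ ^ 3 * H562.qs t := by
  have h1 : 1 ≤ ‖t i‖ ^ 2 * H562.qs t := H562.one_le_mul_qs h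
  calc ‖t i‖ = ‖t i‖ * 1 := (mul_one _).symm
    _ ≤ ‖t i‖ * (‖t i‖ ^ 2 * H562.qs t) := by gcongr
    _ = ‖t i‖ ^ 3 * H562.qs t := by ring

/-- distances bounded below: logarithmic derivative `0` with the error `‖x' - b' i‖ / m` -/
theorem logP_zero {b b' : Fin 6 → ℂ} {x x' : ℂ} {m ρ : ℝ} (hm : 0 < m) (hρ : 0 ≤ ρ)
    (hb : ∀ i, m ≤ ‖x - b i‖) (hb' : ∀ i, ‖x' - b' i‖ ≤ ρ * m) : LogP b b' x x' 0 ρ := by
  intro i
  have h0 : x - b i ≠ 0 := norm_pos_iff.1 (hm.trans_le (hb i))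
  have h1 := norm_le_qs (fun i => x - b i) i h0
  have h2 : m ≤ ‖x - b i‖ ^ 3 * H562.qs fun i => x - b i := (hb i).trans h1
  calc ‖x' - b' i - 0 * (x - b i)‖ = ‖x' - b' i‖ := by rw [zero_mul, sub_zero]
    _ ≤ ρ * m := hb' i
    _ ≤ ρ * (‖x - b i‖ ^ 3 * H562.qs fun i => x - b i) := by gcongr
    _ = ρ * ‖x - b i‖ ^ 3 * H562.qs fun i => x - b i := by ring

theorem coreL : CoreL := by
  intro k q₀ _
  refine ⟨univ, univ_mem, fun c r R₀ hc hr => ?_⟩
  have hm : 0 < min r (c / 32) := lt_min hr (by positivity)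
  refine ⟨2 * Real.log 32, (min r (c / 32))⁻¹, mul_pos two_pos (Real.log_pos (by norm_num)),
    inv_pos.2 hm, fun q d hA x _ hx hl δ lam dz => ?_⟩
  set m := min r (c / 32) with hmdef
  have hd : ‖d‖ ≤ c / 32 := norm_le_of_len hc hA.d0 hA.len
  have hs : 0 ≤ ‖δ‖ + ‖dz‖ + ‖d‖ * ‖lam‖ := by positivity
  have hmm : m⁻¹ * (‖δ‖ + ‖dz‖ + ‖d‖ * ‖lam‖) * m = ‖δ‖ + ‖dz‖ + ‖d‖ * ‖lam‖ := by
    field_simp
  refine logP_zero hm (by positivity) (fun i => ?_) (fun i => ?_)
  · by_cases h1 : i = k.castSucc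
    · have h : bd k q d i = q k.castSucc - d := by simp [bd, H828.pr, h1]
      rw [h]
      have : ‖x - q k.castSucc‖ ≤ ‖x - (q k.castSucc - d)‖ + ‖d‖ := by
        calc ‖x - q k.castSucc‖ = ‖(x - (q k.castSucc - d)) - d‖ := by ring_nf
          _ ≤ _ := norm_sub_le _ _
      exact (min_le_right _ _).trans (by linarith)
    · by_cases h2 : i = k.succ
      · have h : bd k q d i = q k.castSucc + d := by
          have hne : k.succ ≠ k.castSucc := (Fin.castSucc_lt_succ (i := k)).ne'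
          simp [bd, H828.pr, h2, hne]
        rw [h]
        have : ‖x - q k.castSucc‖ ≤ ‖x - (q k.castSucc + d)‖ + ‖d‖ := by
          calc ‖x - q k.castSucc‖ = ‖(x - (q k.castSucc + d)) + d‖ := by ring_nf
            _ ≤ _ := norm_add_le _ _
        exact (min_le_right _ _).trans (by linarith)
      · have h : bd k q d i = q i := by simp [bd, H828.pr, h1, h2]
        rw [h]
        exact (min_le_left _ _).trans (hl i h1 h2)
  · rw [hmm]
    by_cases h1 : i = k.castSucc
    · have h : bw k δ d lam i = δ k.castSucc - d * lam := by simp [bw, H828.pr, h1]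
      rw [h]
      calc ‖dz - (δ k.castSucc - d * lam)‖ ≤ ‖dz‖ + ‖δ k.castSucc - d * lam‖ := norm_sub_le _ _
        _ ≤ ‖dz‖ + (‖δ k.castSucc‖ + ‖d * lam‖) := by gcongr; exact norm_sub_le _ _
        _ ≤ ‖dz‖ + (‖δ‖ + ‖d‖ * ‖lam‖) := by
          gcongr
          · exact norm_le_pi_norm δ _
          · exact (norm_mul _ _).le
        _ = _ := by ring
    · by_cases h2 : i = k.succ
      · have h : bw k δ d lam i = δ k.castSucc + d * lam := by
          have hne : k.succ ≠ k.castSucc := (Fin.castSucc_lt_succ (i := k)).ne'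
          simp [bw, H828.pr, h2, hne]
        rw [h]
        calc ‖dz - (δ k.castSucc + d * lam)‖ ≤ ‖dz‖ + ‖δ k.castSucc + d * lam‖ := norm_sub_le _ _
          _ ≤ ‖dz‖ + (‖δ k.castSucc‖ + ‖d * lam‖) := by gcongr; exact norm_add_le _ _
          _ ≤ ‖dz‖ + (‖δ‖ + ‖d‖ * ‖lam‖) := by
            gcongr
            · exact norm_le_pi_norm δ _
            · exact (norm_mul _ _).le
          _ = _ := by ring
      · have h : bw k δ d lam i = δ i := by simp [bw, H828.pr, h1, h2]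
        rw [h]
        calc ‖dz - δ i‖ ≤ ‖dz‖ + ‖δ i‖ := norm_sub_le _ _
          _ ≤ ‖dz‖ + (‖δ‖ + ‖d‖ * ‖lam‖) := by
            gcongr
            have := norm_le_pi_norm δ i
            have h3 : 0 ≤ ‖d‖ * ‖lam‖ := by positivity
            linarith
          _ = _ := by ring

end Vale.Agent.P273.H976

end
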